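import Vale.Agent.P235.K5.Mix.Defs
import Vale.Agent.P235.K5.H320.NOut
import Vale.Agent.P235.K5.H578.NHalf

set_option linter.all false

/-!
# [NLAW2] the cut metric of the slots (helper578)
-/

namespace Vale.Agent.P235.K5.Mix

open Finset Vale.Agent.P235 Vale.Agent.P235.K5 Vale.Agent.P235.K5.H439 Vale.Agent.P235.H684

theorem mean_ge {O : Type} [Fintype O] {P : O → ℝ} (hP : ∀ o, 0 ≤ P o) (h1 : ∑ o, P o = 1)
    {f : O → ℝ} (hf : ∀ o, 0 ≤ f o) {a : ℝ} (ha : 0 ≤ a)
    (hac : ∑ o, (if f o < a then P o else 0) ≤ 1 / 2) : a / 2 ≤ ∑ o, P o * f o := by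
  have h2 : ∑ o, (P o * a - (if f o < a then P o else 0) * a) ≤ ∑ o, P o * f o := by
    refine sum_le_sum fun o _ => ?_
    by_cases h : f o < a
    · rw [if_pos h, sub_self]
      exact mul_nonneg (hP o) (hf o)
    · rw [if_neg h, zero_mul, sub_zero]
      exact mul_le_mul_of_nonneg_left (not_lt.1 h) (hP o)
  rw [sum_sub_distrib, ← sum_mul, ← sum_mul, h1, one_mul] at h2
  have h3 : (∑ o, (if f o < a then P o else 0)) * a ≤ 1 / 2 * a :=
    mul_le_mul_of_nonneg_right hac ha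
  linarith

theorem nlaw2 (hM : Mon2Stmt) : NLaw2Stmt := by
  classical
  intro k ε hε
  obtain ⟨L, κ0, hκ0, hL⟩ := hM k ε hε
  obtain ⟨κ, hκ, H⟩ := exists_bproc k L (ε := 1 / 2) (by norm_num)
  refine ⟨κ * κ0 / 2, by positivity, ?_⟩
  intro n T Z d hd
  obtain ⟨η, hlip, hren, hcap⟩ := hL n T Z d hd
  have hdn : ∀ p q, 0 ≤ d p q := by
    intro p q
    rcases eq_or_ne p q with e | e
    · rw [e, hd.self]
    · exact (hd.pos p q e).le
  obtain ⟨R⟩ := H (Fin T) (Fin n) (fun _ => d) Z.up (fun t => (t : ℕ)) (fun t => Z.up t = t) Z.S η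
    (fun t p q => if (∃ j, κ0 * d p q ≤ |η t j p - η t j q|) then κ0 * d p q else 0)
    (fun _ p q => hdn p q) (fun _ _ p q => le_rfl)
    (fun t ht => (lt_of_le_of_ne (Z.up_le t) ht : Z.up t < t)) Z.card hlip
    (fun t ht j => hren t ht j)
    (by
      intro t p q hpos
      by_cases h : ∃ j, κ0 * d p q ≤ |η t j p - η t j q|
      · rw [if_pos h]
        exact h
      · rw [if_neg h] at hpos
        exact absurd hpos (lt_irrefl _))
  obtain ⟨G, hG0, hG⟩ := R.exists_bound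
  set μ : Fin T → (Fin n → Bool) → ℝ := fun t => H957.lawOf G (R.P t) (R.g t) with hμdef
  have hμ : ∀ t, IsLaw (μ t) := fun t =>
    H957.lawOf_isLaw hG0 (R.P_nonneg t) (R.P_sum t) (R.g t)
  have hc : ∀ t : Fin T, t.val ≠ 0 → ∀ h : (Fin n → Bool) → ℝ,
      DepOn ((H578.ofTor Z).S t : Set (Fin n)) h →
      Ex (μ t) h = Ex (μ ((H578.ofTor Z).par t)) h := by
    intro t ht0 h hh
    have ht : Z.up t ≠ t := ne_of_lt (Z.up_lt t (Nat.pos_of_ne_zero ht0))
    show Ex (H957.lawOf G (R.P t) (R.g t)) h =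
      Ex (H957.lawOf G (R.P (Z.up t)) (R.g (Z.up t))) h
    rw [H957.Ex_lawOf, H957.Ex_lawOf]
    refine (H957.mu_step (Q := R.Q t) (R.Q_nonneg t) (R.Q_left t ht) (R.Q_right t ht)
      (fun o' a ha => R.ce t ht a ha o') ?_ (fun o a _ => hG _ _ _) hh).symm
    intro o' a ha b hb
    rcases le_total (R.g t o' a) (R.g t o' b) with h2 | h2
    · exact Or.inl fun o ho => (R.ord t ht o o' ho.ne' a ha b hb).mpr h2
    · exact Or.inr fun o ho => (R.ord t ht o o' ho.ne' b hb a ha).mpr h2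
  have hEx : ∀ t p q, 2 * G * Ex (μ t) (fun X => if X p = X q then 0 else 1) =
      ∑ o, R.P t o * |R.g t o p - R.g t o q| := by
    intro t p q
    show 2 * G * Ex (H957.lawOf G (R.P t) (R.g t)) _ = _
    rw [H957.Ex_lawOf, H957.mu_ne (R.P t) (g := R.g t) (p := p) (q := q) (fun o => hG t o p)
      (fun o => hG t o q)]
    field_simp
  refine ⟨fun x y => 2 * G * PM (KK (H578.ofTor Z).elim fun v => μ ((H578.ofTor Z).β v)) fun X =>
    if X x = X y then 0 else 1, ?_, ?_, ?_⟩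
  · exact (H578.isL1_PM ((H578.ofTor Z).kk_ker hμ) id).smul (by positivity)
  · intro t p hp q hq
    show 2 * G * PM _ _ ≤ _
    rw [(H578.ofTor Z).PM_dif hμ hc (t := t) hp hq, hEx]
    have h1 := R.mean_abs (fun t p q => hdn p q) t p q
    have h2 := hdn p q
    linarith
  · intro t z hz a ha
    have haH : a ∈ Z.H t := Finset.mem_union_left _ ha
    rcases hcap t z hz a ha with h | h
    · left
      show κ * κ0 / 2 * d z a ≤ 2 * G * PM _ _
      rw [(H578.ofTor Z).PM_dif hμ hc (t := t) hz haH, hEx]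
      have h1 := R.ac t z a
      simp only [if_pos h] at h1
      have h2 := mean_ge (R.P_nonneg t) (R.P_sum t) (f := fun o => |R.g t o z - R.g t o a|)
        (fun o => abs_nonneg _) (a := κ * (κ0 * d z a))
        (mul_nonneg hκ.le (mul_nonneg hκ0.le (hdn z a))) h1
      calc κ * κ0 / 2 * d z a = κ * (κ0 * d z a) / 2 := by ring
        _ ≤ _ := h2
    · exact Or.inr h

end Vale.Agent.P235.K5.Mix
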